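import Vale.Agent.P331.Bound

/-!
# P331: one sample per element against the almighty adversary

If every `k` non-loops of a matroid of rank at most `r` are independent, one sample per element
gives the ratio `1 / (65 + ⌈log₂ (⌊r / k⌋ + 1)⌉)`.
-/

open Finset MeasureTheory
open scoped NNReal ENNReal Classical

namespace Vale.Agent.Results.P331.GirthRatio

open Vale.Agent.P331

theorem result : ∀ (α : Type) [Fintype α] (M : Matroid α) (k r : ℕ), 0 < k →
    (∀ I : Finset α, M.Indep (I : Set α) → #I ≤ r) →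
    (∀ A : Finset α, #A ≤ k → (∀ e ∈ A, M.Indep ({e} : Set α)) → M.Indep (A : Set α)) →
    ∃ (R : Type) (_ : Fintype R) (_ : Nonempty R)
      (rule : R → (α → ℝ≥0) → List (α × ℝ≥0) → α → ℝ≥0 → Bool),
      (∀ (ρ : R) (S V : α → ℝ≥0) (l : List α),
        M.Indep (accepted (rule ρ S) V [] l : Set α)) ∧
      (∀ (ρ : R) (l : List α) (e : α),
        MeasurableSet {z : (α → ℝ≥0) × (α → ℝ≥0) | e ∈ accepted (rule ρ z.1) z.2 [] l}) ∧
      ∀ (D : α → Measure ℝ≥0) [∀ e, IsProbabilityMeasure (D e)]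
        (order : R → (α → ℝ≥0) → (α → ℝ≥0) → List α),
        (∀ ρ S V, (order ρ S V).Nodup ∧ ∀ e, e ∈ order ρ S V) →
        ∫⁻ z, opt M z.2 ∂(Measure.pi D).prod (Measure.pi D) ≤
          (65 + Nat.clog 2 (r / k + 1) : ℕ) *
            ((∑ ρ : R, ∫⁻ z, ((∑ e ∈ accepted (rule ρ z.1) z.2 [] (order ρ z.1 z.2), z.2 e : ℝ≥0) :
              ℝ≥0∞) ∂(Measure.pi D).prod (Measure.pi D)) / (Fintype.card R : ℝ≥0∞)) := by
  intro α _ M k r hk hr hgirth
  set L := Nat.clog 2 (r / k + 1) with hL
  have : Nonempty (Fin k) := ⟨⟨0, hk⟩⟩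
  let rule : Fin (64 + (L + 1)) × (α → Fin k) × Bool → (α → ℝ≥0) → List (α × ℝ≥0) → α → ℝ≥0 →
      Bool := fun ρ S =>
    Fin.addCases (motive := fun _ => List (α × ℝ≥0) → α → ℝ≥0 → Bool)
      (fun _ => colourRule M ρ.2.1 ρ.2.2 S) (fun j => levelRule M k (j : ℕ) S) ρ.1
  refine ⟨Fin (64 + (L + 1)) × (α → Fin k) × Bool, inferInstance, inferInstance, rule, ?_, ?_, ?_⟩
  · rintro ⟨i, f, b⟩ S V l
    induction i using Fin.addCases with
    | left i => simp only [rule, Fin.addCases_left]; exact colour_indep M hgirth f b S V l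
    | right j => simp only [rule, Fin.addCases_right]; exact level_indep M k j S V l
  · rintro ⟨i, f, b⟩ l e
    induction i using Fin.addCases with
    | left i =>
        simp only [rule, Fin.addCases_left, colourRule]
        exact measurableSet_accepted (Z := (α → ℝ≥0) × (α → ℝ≥0)) (ColourOk M f)
          (fun z e v => qual b (cls M f (f e)) z.1 v) (fun z => z.2)
          (fun e => measurableSet_qual b _ e) l e
    | right j =>
        simp only [rule, Fin.addCases_right, levelRule]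
        exact measurableSet_accepted (Z := (α → ℝ≥0) × (α → ℝ≥0))
          (fun A : Finset α => M.Indep (A : Set α))
          (fun z _ v => kth (live M) k z.1 / 2 ^ (j : ℕ) ≤ v) (fun z => z.2)
          (fun e => measurableSet_le
            (((measurable_kth (live M) k).comp measurable_fst).div_const _)
            ((measurable_pi_apply e).comp measurable_snd)) l e
  intro D _ order horder
  have hpow : r ≤ k * 2 ^ L := by
    have h1 : r / k + 1 ≤ 2 ^ L := Nat.le_pow_clog (by norm_num) _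
    calc r ≤ k * (r / k + 1) := by
          have := Nat.div_add_mod r k
          have := Nat.mod_lt r hk
          rw [Nat.mul_add, Nat.mul_one]
          omega
      _ ≤ _ := Nat.mul_le_mul_left k h1
  set gain : Fin (64 + (L + 1)) × (α → Fin k) × Bool → ℝ≥0∞ := fun ρ =>
    ∫⁻ z, ((∑ e ∈ accepted (rule ρ z.1) z.2 [] (order ρ z.1 z.2), z.2 e : ℝ≥0) : ℝ≥0∞) ∂law D
    with hgain
  set C : ℝ≥0∞ := 2 * (k : ℝ≥0∞) ^ Fintype.card α with hC
  have hA : ∀ i : Fin 64, ∑ f : α → Fin k, ∑ b : Bool,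
      ∫⁻ z, ((∑ c, win b (cls M f c) z : ℝ≥0) : ℝ≥0∞) ∂law D ≤
        ∑ f : α → Fin k, ∑ b : Bool, gain (Fin.castAdd (L + 1) i, f, b) := by
    intro i
    refine sum_le_sum fun f _ => sum_le_sum fun b _ => lintegral_mono fun z => ?_
    simp only [rule, Fin.addCases_left]
    exact ENNReal.coe_le_coe.2 (colour_gain M f b z.1 z.2 _ (horder _ _ _).2)
  have hB : ∀ j : Fin (L + 1), C * ∫⁻ z, (levelVal M k j z : ℝ≥0∞) ∂law D ≤
      ∑ f : α → Fin k, ∑ b : Bool, gain (Fin.natAdd 64 j, f, b) := by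
    intro j
    refine le_trans (le_of_eq ?_) (sum_le_sum fun f _ => sum_le_sum fun b _ =>
      lintegral_mono (f := fun z => (levelVal M k j z : ℝ≥0∞)) fun z => ?_)
    · simp only [sum_const, card_univ, Fintype.card_bool, nsmul_eq_mul, Fintype.card_fun,
        Fintype.card_fin, hC]
      push_cast
      ring
    · simp only [rule, Fin.addCases_right]
      exact ENNReal.coe_le_coe.2 (level_gain M k j z.1 z.2 _ (horder _ _ _).2)
  have htot : C * ∫⁻ z, opt M z.2 ∂law D ≤ ∑ ρ, gain ρ := by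
    calc C * ∫⁻ z, opt M z.2 ∂law D
        ≤ C * (4 * yard D (live M) k +
            ∑ j ∈ range (L + 1), ∫⁻ z, (levelVal M k j z : ℝ≥0∞) ∂law D) :=
          mul_le_mul_right (lintegral_opt_le D M hk r L hr hpow) _
      _ = 4 * (C * yard D (live M) k) +
            ∑ j : Fin (L + 1), C * ∫⁻ z, (levelVal M k j z : ℝ≥0∞) ∂law D := by
          rw [Finset.sum_range fun j => ∫⁻ z, (levelVal M k j z : ℝ≥0∞) ∂law D, mul_add,
            mul_sum]
          ring
      _ ≤ (∑ i : Fin 64, ∑ f : α → Fin k, ∑ b : Bool, gain (Fin.castAdd (L + 1) i, f, b)) +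
            ∑ j : Fin (L + 1), ∑ f : α → Fin k, ∑ b : Bool, gain (Fin.natAdd 64 j, f, b) := by
          refine add_le_add ?_ (sum_le_sum fun j _ => hB j)
          refine le_trans ?_ (sum_le_sum fun i _ => hA i)
          rw [sum_const, card_univ, Fintype.card_fin, nsmul_eq_mul]
          refine (mul_le_mul_right (yard_le_colour_rules D M hk) _).trans (le_of_eq ?_)
          push_cast
          ring
      _ = ∑ ρ, gain ρ := by
          simp only [Fintype.sum_prod_type]
          exact (Fin.sum_univ_add fun i => ∑ f : α → Fin k, ∑ b : Bool, gain (i, f, b)).symm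
  have hcard : (Fintype.card (Fin (64 + (L + 1)) × (α → Fin k) × Bool) : ℝ≥0∞) =
      ((65 + L : ℕ) : ℝ≥0∞) * C := by
    rw [hC]
    simp only [Fintype.card_prod, Fintype.card_fin, Fintype.card_fun, Fintype.card_bool]
    push_cast
    ring
  have hC0 : C ≠ 0 := mul_ne_zero two_ne_zero (pow_ne_zero _ (Nat.cast_ne_zero.2 hk.ne'))
  have hCt : C ≠ ∞ :=
    ENNReal.mul_ne_top (by simp) (ENNReal.pow_ne_top (ENNReal.natCast_ne_top k))
  have hn0 : ((65 + L : ℕ) : ℝ≥0∞) ≠ 0 := Nat.cast_ne_zero.2 (by omega)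
  rw [← mul_div_assoc, hcard, ENNReal.mul_div_mul_left _ _ hn0 (ENNReal.natCast_ne_top _),
    ENNReal.le_div_iff_mul_le (Or.inl hC0) (Or.inl hCt), mul_comm]
  exact htot

end Vale.Agent.Results.P331.GirthRatio
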